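import Vale.Agent.P344.H952.CFinal

/-!
# P344: condition numbers and Q1

For an addition or subtraction `g` of `p` and `q` in a circuit, `C.cond f h g` is
`|h_g| (|p| + |q|)` and `C.loss f h g` is `|h_g| |f_g| (1 + log ((|p| + |q|) / |f_g|))`, where
`f_g` is the linear form computed by `g` and `h_g` the derivative of the outputs with respect to
the value of `g` (Euclidean norms).  They are `0` for scalar multiplications.
-/

namespace Vale.Agent.Results.P344.Conditioning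

open Filter Vale.Agent.P344

theorem result :
    -- every circuit has exactly one `f` and one `h`, and losses are at most condition numbers
    (∀ (n : ℕ) (C : Circuit (Fin n) (Fin n)), (∃! f, C.IsForms f) ∧ (∃! h, C.IsSens h) ∧
      ∀ f h, C.IsForms f → ∀ g, C.loss f h g ≤ C.cond f h g) ∧
    -- a lower bound for every circuit for `F_n`, or for any complex Hadamard matrix `A`
    (∀ (n : ℕ) (A : Matrix (Fin n) (Fin n) ℂ), A * A.conjTranspose = (n : ℂ) • 1 →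
      (∀ j k, ‖A j k‖ = 1) → ∀ (C : Circuit (Fin n) (Fin n)) (f h : C.G → Fin n → ℂ),
        Realizes C f h A → ∀ B : Finset C.G,
          ((n : ℝ) - B.card) * Real.logb 2 n ≤
            10 * ∑ g ∈ Finset.univ \ B, C.loss f h g / Real.sqrt n) ∧
    -- in particular circuits for `F_n` with condition numbers at most `K` have size
    -- at least `n log n / (10 K)`
    (∀ (n s D : ℕ) (K : ℝ), 1 ≤ n → Conditioned Set.univ D K n s →
      n * Real.logb 2 n ≤ 10 * K * s) ∧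
    -- without the bound on the condition numbers, the least size is `L(n)`
    (∀ n : ℕ, 1 ≤ n → IsLeast {s | ∃ D K, Conditioned Set.univ D K n s} (L n)) ∧
    -- circuits with bounded condition numbers of nearly least size
    (∃ γ : ℝ, γ = liminf (fun n : ℕ => (L n : ℝ) / (n * Real.logb 2 n)) atTop ∧
      (∀ δ : ℝ, 0 < δ → ∃ Λ₀ : Set ℂ, Λ₀.Finite ∧ (∀ z ∈ Λ₀, IsAlgebraic ℚ z) ∧ ∃ K : ℝ,
        ∀ᶠ n : ℕ in atTop, ∃ s : ℕ,
          Conditioned (algBall 1 ∪ Λ₀) ⌊K * Real.logb 2 n⌋₊ K n s ∧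
          (s : ℝ) ≤ (4 * γ + δ) * (n * Real.logb 2 n)) ∧
      (∀ δ : ℝ, 0 < δ → ∃ Λ₀ : Set ℂ, Λ₀.Finite ∧ (∀ z ∈ Λ₀, IsAlgebraic ℚ z) ∧ ∃ K : ℝ,
        ∀ᶠ k : ℕ in atTop, ∃ s : ℕ,
          Conditioned (rootsU ∪ Λ₀) ⌊K * k⌋₊ K (2 ^ k) s ∧
          (s : ℝ) ≤ (4 * γ + δ) * (2 ^ k * k))) ∧
    -- Q1 is the question whether `1 / (10 K)` can be replaced by a constant
    List.TFAE [
      -- Q1
      ∃ c : ℝ, 0 < c ∧ ∀ᶠ n : ℕ in atTop, c * (n * Real.logb 2 n) ≤ L n,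
      -- algebraic coefficients of modulus `≤ K`, depth `≤ K log n`, condition numbers `≤ K`,
      -- with `c` independent of `K`
      ∃ c : ℝ, 0 < c ∧ ∀ K : ℝ, ∀ᶠ n : ℕ in atTop, ∀ s : ℕ,
        Conditioned (algBall K) ⌊K * Real.logb 2 n⌋₊ K n s → c * (n * Real.logb 2 n) ≤ s,
      -- the same for infinitely many `n`
      ∃ c : ℝ, 0 < c ∧ ∀ K : ℝ, ∃ᶠ n : ℕ in atTop, ∀ s : ℕ,
        Conditioned (algBall K) ⌊K * Real.logb 2 n⌋₊ K n s → c * (n * Real.logb 2 n) ≤ s,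
      -- `K(n)` may tend to infinity as slowly as we please
      ∃ K : ℕ → ℝ, Tendsto K atTop atTop ∧ ∃ c : ℝ, 0 < c ∧ ∃ᶠ n : ℕ in atTop, ∀ s : ℕ,
        Conditioned (algBall (K n)) ⌊K n * Real.logb 2 n⌋₊ (K n) n s →
          c * (n * Real.logb 2 n) ≤ s,
      -- `n = 2 ^ k`; roots of unity and finitely many other algebraic coefficients
      ∃ c : ℝ, 0 < c ∧ ∀ (Λ₀ : Set ℂ) (K : ℝ), Λ₀.Finite → (∀ z ∈ Λ₀, IsAlgebraic ℚ z) →
        ∃ᶠ k : ℕ in atTop, ∀ s : ℕ,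
          Conditioned (rootsU ∪ Λ₀) ⌊K * k⌋₊ K (2 ^ k) s → c * (2 ^ k * k) ≤ s] :=
  ⟨fun _ C => ⟨C.existsUnique_forms, C.existsUnique_sens,
      fun _ _ hf g => loss_le_cond C hf g⟩,
    fun _ _ hA hflat _ _ _ hr B => conditioning_bound hA hflat hr B,
    fun _ _ _ _ hn H => H.lower hn, fun _ hn => isLeast_L hn,
    ⟨gam, liminf_eq_gam.symm, fun _ hδ => cupper' hδ, fun _ hδ => cupper_two' hδ⟩, ctfae⟩

end Vale.Agent.Results.P344.Conditioning
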