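import Vale.Agent.P344.H951.Reduce

/-!
# P344: Q1 is equivalent to its in-place, well-conditioned form

`L n` is the complexity of the problem (unrestricted coefficients, memory and depth).
`List (Step (Fin n))` are the programs on exactly `n` registers with the steps
`x_i ← x_i + a * x_j` and `x_i ← b * x_i`.
-/

namespace Vale.Agent.Results.P344.InPlace

open Filter Vale.Agent.P344 Vale.Agent.P344.InPlace

theorem result :
    ∃ γ : ℝ, 0 ≤ γ ∧
      -- `γ` is the lower limit of `L(n) / (n log n)`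
      γ = liminf (fun n : ℕ => (L n : ℝ) / (n * Real.logb 2 n)) atTop ∧
      -- every program on `n` registers, arbitrary coefficients
      (∀ n : ℕ, 2 ≤ n → ∀ p : List (Step (Fin n)), ComputesDFT n p →
        (γ * (n * Real.logb 2 n) - n) / 2 ≤ p.length) ∧
      -- well-conditioned programs on `2 ^ k` registers
      (∀ δ : ℝ, 0 < δ → ∃ C : ℝ, ∀ᶠ k : ℕ in atTop, ∃ p : List (Step (Fin (2 ^ k))),
        Tame C (2 ^ k) p ∧ (p.length : ℝ) ≤ (48 * γ + δ) * (2 ^ k * k)) ∧
      -- forms of Q1, for any function `C(n)` tending to infinity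
      ∀ C : ℕ → ℝ, Tendsto C atTop atTop → List.TFAE [
        -- Q1
        ∃ c : ℝ, 0 < c ∧ ∀ᶠ n : ℕ in atTop, c * (n * Real.logb 2 n) ≤ L n,
        -- programs on `n` registers, arbitrary coefficients
        ∃ c : ℝ, 0 < c ∧ ∀ᶠ n : ℕ in atTop, ∀ p : List (Step (Fin n)), ComputesDFT n p →
          c * (n * Real.logb 2 n) ≤ p.length,
        -- well-conditioned programs, with a constant independent of the condition bound
        ∃ c : ℝ, 0 < c ∧ ∀ K : ℝ, ∀ᶠ n : ℕ in atTop, ∀ p : List (Step (Fin n)), Tame K n p →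
          c * (n * Real.logb 2 n) ≤ p.length,
        -- condition bound `C(n)`
        ∃ c : ℝ, 0 < c ∧ ∀ᶠ n : ℕ in atTop, ∀ p : List (Step (Fin n)), Tame (C n) n p →
          c * (n * Real.logb 2 n) ≤ p.length,
        -- condition bound `C(n)`, infinitely many `n = 2 ^ k` only
        ∃ c : ℝ, 0 < c ∧ ∃ᶠ k : ℕ in atTop, ∀ p : List (Step (Fin (2 ^ k))),
          Tame (C (2 ^ k)) (2 ^ k) p → c * (2 ^ k * k) ≤ p.length] :=
  ⟨gam, gam_nonneg, liminf_eq_gam.symm, fun _ hn _ hp => prog_lower hn hp,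
    fun _ hδ => let ⟨C, _, h⟩ := inplace_upper_gam hδ; ⟨C, h⟩, fun C hC => tfae_inplace C hC⟩

end Vale.Agent.Results.P344.InPlace
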