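import Vale.Agent.P344.H880.InvUpper
import Vale.Agent.P344.H880.InvGroup

/-!
# P344: the additive complexity of the DFT for circuits with symmetries
-/

namespace Vale.Agent.Results.P344.InvariantCircuits

open Vale.Agent.P344.Inv

/-- Let `n ≥ 1`. Coefficients are arbitrary complex numbers, scalar multiplications are free.
(1) Let a linear circuit compute the DFT of length `n`, and let `K` be a group of symmetries of its
graph which permutes the outputs. If the orbits of the inputs have at least `a` elements and the
orbits of the outputs at most `b ≥ 1`, or conversely, then the circuit has at least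
`n log₂ (a / b)` additions.
(2) If the graph has a symmetry which rotates the inputs by `r` and the outputs by `s`, then there
are at least `n (max (weight (ord n r)) (weight (ord n s)) - weight (gcd (ord n r) (ord n s)))`
additions.
(3) In particular, if the graph is invariant under translations (`r = 1`, `s = 0`) or under
modulations (`r = 0`, `s = 1`), then it has at least `n * weight n ≥ n log₂ n` additions.
(4) This is attained: a circuit which is equivariant under translations computes the DFT with
exactly `n * weight n` additions. -/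
theorem result (n : ℕ) (hn : 1 ≤ n) :
    (∀ C : Circuit n, C.Computes (dft n) → ∀ K : Subgroup (Equiv.Perm C.G),
      (∀ π ∈ K, C.IsSymm π) → (∀ π ∈ K, ∀ k, ∃ l, π (C.output k) = C.output l) →
      ∀ a b : ℕ, 1 ≤ b →
        ((∀ j, a ≤ (MulAction.orbit K (C.input j)).ncard) ∧
          (∀ k, (MulAction.orbit K (C.output k)).ncard ≤ b)) ∨
        ((∀ j, (MulAction.orbit K (C.input j)).ncard ≤ b) ∧
          (∀ k, a ≤ (MulAction.orbit K (C.output k)).ncard)) →
        n * (Real.logb 2 a - Real.logb 2 b) ≤ C.additions) ∧
    (∀ C : Circuit n, C.Computes (dft n) → ∀ r s, C.Symmetric r s →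
      n * max (weight (ord n r)) (weight (ord n s)) ≤
        C.additions + n * weight ((ord n r).gcd (ord n s))) ∧
    (∀ C : Circuit n, C.Computes (dft n) → C.Symmetric 1 0 ∨ C.Symmetric 0 1 →
      n * weight n ≤ C.additions ∧ n * Real.logb 2 n ≤ C.additions) ∧
    ∃ C : Circuit n, C.Computes (dft n) ∧ C.Equivariant ∧ C.additions = n * weight n := by
  have hn0 : n ≠ 0 := by omega
  have h1 : ∀ C : Circuit n, C.Computes (dft n) → ∀ r s, C.Symmetric r s →
      n * max (weight (ord n r)) (weight (ord n s)) ≤
        C.additions + n * weight ((ord n r).gcd (ord n s)) := by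
    intro C hC r s hs
    rw [← Nat.mul_max_mul_left]
    exact max_le (lower_in C (dft_det_ne_zero n) hC hs) (lower_out C (dft_det_ne_zero n) hC hs)
  refine ⟨fun C hC K hK hfix a b hb h => ?_, h1, fun C hC hs => ?_, ?_⟩
  · rcases h with ⟨hin, hout⟩ | ⟨hin, hout⟩
    · exact lower_group_in C (dft_det_ne_zero n) hC K hK hb hin hout
    · exact lower_group_out C (dft_det_ne_zero n) hC K hK hfix hb hin hout
  · have h2 : n * weight n ≤ C.additions := by
      rcases hs with hs | hs
      · have h3 := h1 C hC 1 0 hs
        rw [ord_one, ord_zero hn0, Nat.gcd_one_right, weight_one, Nat.mul_zero, Nat.add_zero] at h3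
        exact (Nat.mul_le_mul_left n (le_max_left _ _)).trans h3
      · have h3 := h1 C hC 0 1 hs
        rw [ord_one, ord_zero hn0, Nat.gcd_one_left, weight_one, Nat.mul_zero, Nat.add_zero] at h3
        exact (Nat.mul_le_mul_left n (le_max_right _ _)).trans h3
    refine ⟨h2, ?_⟩
    have h4 : (n : ℝ) * Real.logb 2 n ≤ n * (weight n : ℝ) :=
      mul_le_mul_of_nonneg_left (logb_le_weight hn0) (Nat.cast_nonneg n)
    refine h4.trans ?_
    exact_mod_cast h2
  · obtain ⟨C, π, v, c, hg, ha⟩ := upper n hn0
    exact ⟨C, ⟨v, hg.forms, hg.out⟩, ⟨π, v, c, hg.forms, hg.args, hg.inp, hg.fix,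
      fun g => ⟨hg.scal g, hg.equi g⟩⟩, ha⟩

end Vale.Agent.Results.P344.InvariantCircuits
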