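import Vale.Agent.P344.H952.Main

/-!
# P344: a zero-one law and a reduction for Q1

`L n` is the complexity of the problem (unrestricted coefficients and depth), `LMany N n` the
complexity of `N` independent transforms `F_n`, computed together.
-/

namespace Vale.Agent.Results.P344.ZeroOneLaw

open Filter Asymptotics Vale.Agent.P344

theorem result :
    ∃ γ : ℝ, 0 ≤ γ ∧
      -- `γ` is the lower limit of `L(n) / (n log n)`
      γ = liminf (fun n : ℕ => (L n : ℝ) / (n * Real.logb 2 n)) atTop ∧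
      -- amortised lower bound, for unrestricted circuits
      (∀ N n : ℕ, 1 ≤ N → 2 ≤ n → N * (γ * (n * Real.logb 2 n) - n) ≤ LMany N n) ∧
      -- upper bound by circuits with restricted coefficients and depth `O(log n)`
      (∀ δ : ℝ, 0 < δ → ∃ Λ₀ : Set ℂ, Λ₀.Finite ∧ (∀ z ∈ Λ₀, IsAlgebraic ℚ z) ∧ ∃ K : ℝ,
        ∀ᶠ n : ℕ in atTop, ∃ s : ℕ,
          Computes (algBall 1 ∪ Λ₀) ⌊K * Real.logb 2 n⌋₊ (dft n) s ∧
          (s : ℝ) ≤ (4 * γ + δ) * (n * Real.logb 2 n)) ∧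
      (∀ δ : ℝ, 0 < δ → ∃ Λ₀ : Set ℂ, Λ₀.Finite ∧ (∀ z ∈ Λ₀, IsAlgebraic ℚ z) ∧ ∃ K : ℝ,
        ∀ᶠ k : ℕ in atTop, ∃ s : ℕ,
          Computes (rootsU ∪ Λ₀) ⌊K * k⌋₊ (dft (2 ^ k)) s ∧
          (s : ℝ) ≤ (4 * γ + δ) * (2 ^ k * k)) ∧
      -- zero-one law
      ((∃ c : ℝ, 0 < c ∧ ∀ᶠ n : ℕ in atTop, c * (n * Real.logb 2 n) ≤ L n) ∨
        (fun n : ℕ => (L n : ℝ)) =o[atTop] fun n : ℕ => (n : ℝ) * Real.logb 2 n) ∧
      -- forms of Q1
      List.TFAE [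
        -- Q1
        ∃ c : ℝ, 0 < c ∧ ∀ᶠ n : ℕ in atTop, c * (n * Real.logb 2 n) ≤ L n,
        0 < γ,
        -- infinitely many `n`
        ∃ c : ℝ, 0 < c ∧ ∃ᶠ n : ℕ in atTop, c * (n * Real.logb 2 n) ≤ L n,
        -- bounded algebraic coefficients and depth `≤ C log n`, with `c` independent of `C`
        ∃ c : ℝ, 0 < c ∧ ∀ C : ℝ, ∀ᶠ n : ℕ in atTop, ∀ s : ℕ,
          Computes (algBall C) ⌊C * Real.logb 2 n⌋₊ (dft n) s → c * (n * Real.logb 2 n) ≤ s,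
        -- the bound `C(n)` may tend to infinity as slowly as we please
        ∃ C : ℕ → ℝ, Tendsto C atTop atTop ∧ ∃ c : ℝ, 0 < c ∧ ∀ᶠ n : ℕ in atTop, ∀ s : ℕ,
          Computes (algBall (C n)) ⌊C n * Real.logb 2 n⌋₊ (dft n) s →
            c * (n * Real.logb 2 n) ≤ s,
        -- `n = 2 ^ k`; roots of unity and finitely many other algebraic coefficients
        ∃ c : ℝ, 0 < c ∧ ∀ (Λ₀ : Set ℂ) (K : ℝ), Λ₀.Finite → (∀ z ∈ Λ₀, IsAlgebraic ℚ z) →
          ∀ᶠ k : ℕ in atTop, ∀ s : ℕ,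
          Computes (rootsU ∪ Λ₀) ⌊K * k⌋₊ (dft (2 ^ k)) s → c * (2 ^ k * k) ≤ s,
        -- amortised form
        ∃ c : ℝ, 0 < c ∧ ∀ N n : ℕ, 1 ≤ N → 2 ≤ n →
          N * (c * (n * Real.logb 2 n) - n) ≤ LMany N n] := by
  refine ⟨gam, gam_nonneg, liminf_eq_gam.symm, fun N n hN hn => lower hN hn,
    fun δ hδ => upper hδ, fun δ hδ => upper_two hδ, ?_, tfae_main⟩
  rcases eq_or_lt_of_le gam_nonneg with h0 | hpos
  · right
    rw [isLittleO_iff]
    intro ε hε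
    obtain ⟨_, _, _, _, h⟩ := upper hε
    filter_upwards [h, eventually_ge_atTop 2] with n hn hn2
    obtain ⟨s, hs, hb⟩ := hn
    rw [← h0, mul_zero, zero_add] at hb
    have h2 := logb_pos_of_two_le hn2
    have hn0 : (0 : ℝ) < n := by exact_mod_cast (by omega : 0 < n)
    rw [Real.norm_of_nonneg (Nat.cast_nonneg _), Real.norm_of_nonneg (by positivity)]
    have h3 : (L n : ℝ) ≤ s := by exact_mod_cast L_le hs
    linarith
  · left
    exact absorb hpos fun n hn => lower_one hn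

end Vale.Agent.Results.P344.ZeroOneLaw
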